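import Vale.Agent.P088.R2.H948.G.Ort
import Vale.Agent.P088.R2.H349.J.Spec

/-!
# Row ORTG: the orthogonality identity for doubly harmonic vector valued functions
-/

open MeasureTheory Set
open scoped ContDiff Matrix Topology

noncomputable section

namespace Vale.Agent.P088.HY.G

open Vale.Agent.P088.LR

variable {n m m₁ m₂ : ℕ}

/-- The coefficients as a table. -/
def tS (s : MF n) (e : Co n m) : Sys n (Fin m) := fun a w x =>
  match w with
  | ((some i, some j), a') => if a' = a then s x i j else 0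
  | ((some l, none), a') => e.b l x a a'
  | ((none, some _), _) => 0
  | ((none, none), a') => e.c x a a'

theorem op_tS (s : MF n) (e : Co n m) (u : Fin m → V n → ℝ) (a : Fin m) (x : V n) :
    op (tS s e) u a x = LvG s e u a x := by
  unfold op LvG Lv
  simp only [Fintype.sum_prod_type, Fintype.sum_option, tS, jd_none, jd_some, ite_mul, zero_mul,
    Finset.sum_ite_eq', Finset.mem_univ, if_true, Finset.sum_const_zero, Finset.sum_add_distrib]
  rw [Finset.sum_comm (f := fun (l : Fin n) (q : Fin m) => e.b l x a q * pd l (u q) x)]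
  ring

theorem opx_tS (s : MF n) (e : Co n m₁) (k : Fin m₁ → Fin m₂ → VV n → ℝ) (a : Fin m₁)
    (b : Fin m₂) (z : VV n) : opx (tS s e) k a b z = LxG s e (fun p => k p b) a z := by
  unfold opx LxG Lx
  simp only [Fintype.sum_prod_type, Fintype.sum_option, tS, jx_none, jx_some, ite_mul, zero_mul,
    Finset.sum_ite_eq', Finset.mem_univ, if_true, Finset.sum_const_zero, Finset.sum_add_distrib]
  rw [Finset.sum_comm (f := fun (l : Fin n) (q : Fin m₁) => e.b l z.1 a q * dx l (k q b) z)]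
  ring

theorem opy_tS (s : MF n) (e : Co n m₂) (k : Fin m₁ → Fin m₂ → VV n → ℝ) (a : Fin m₁)
    (b : Fin m₂) (z : VV n) : opy (tS s e) k a b z = LyG s e (fun q => k a q) b z := by
  unfold opy LyG Ly
  simp only [Fintype.sum_prod_type, Fintype.sum_option, tS, jy_none, jy_some, ite_mul, zero_mul,
    Finset.sum_ite_eq', Finset.mem_univ, if_true, Finset.sum_const_zero, Finset.sum_add_distrib]
  rw [Finset.sum_comm (f := fun (l : Fin n) (q : Fin m₂) => e.b l z.2 b q * dy l (k a q) z)]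
  ring

/-- The coefficients of the form as a table. -/
def tP (P : Pf n m₁ m₂) : Z n (Fin m₁) (Fin m₂) → V n → ℝ := fun w x =>
  match w with
  | ((some i, some j), (p, q)) => P.h i j x p q
  | ((some i, none), (p, q)) => P.a i x p q
  | ((none, some i), (p, q)) => P.b i x p q
  | ((none, none), (p, q)) => P.c x p q

theorem form_eq (P : Pf n m₁ m₂) (x : V n) (F : Option (Fin n) → Option (Fin n) → Fin m₁ →
    Fin m₂ → ℝ) : ∑ w : Z n (Fin m₁) (Fin m₂), tP P w x * F w.1.1 w.1.2 w.2.1 w.2.2 =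
      ∑ p, ∑ q, ((∑ i, ∑ j, P.h i j x p q * F (some i) (some j) p q)
        + (∑ i, P.a i x p q * F (some i) none p q) + (∑ i, P.b i x p q * F none (some i) p q)
        + P.c x p q * F none none p q) := by
  have h1 : ∀ G : Option (Fin n) × Option (Fin n) → Fin m₁ × Fin m₂ → ℝ,
      ∑ w : Z n (Fin m₁) (Fin m₂), G w.1 w.2 = ∑ p, ∑ q, ∑ o, G o (p, q) := by
    intro G
    rw [Fintype.sum_prod_type_right, Fintype.sum_prod_type]
  rw [h1 fun o r => tP P (o, r) x * F o.1 o.2 r.1 r.2]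
  refine Finset.sum_congr rfl fun p _ => Finset.sum_congr rfl fun q _ => ?_
  simp only [Fintype.sum_prod_type, Fintype.sum_option, tP, Finset.sum_add_distrib]
  ring

theorem uv_eq (P : Pf n m₁ m₂) (u : Fin m₁ → V n → ℝ) (v : Fin m₂ → V n → ℝ) (x : V n) :
    ∑ w : Z n (Fin m₁) (Fin m₂), tP P w x * (jd w.1.1 (u w.2.1) x * jd w.1.2 (v w.2.2) x) =
      P.uv u v x := by
  rw [form_eq P x fun o o' p q => jd o (u p) x * jd o' (v q) x]
  unfold Pf.uv
  refine Finset.sum_congr rfl fun p _ => Finset.sum_congr rfl fun q _ => ?_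
  simp only [jd_none, jd_some, mul_assoc]

theorem dg_eq (P : Pf n m₁ m₂) (k : Fin m₁ → Fin m₂ → VV n → ℝ) (x : V n) :
    ∑ w : Z n (Fin m₁) (Fin m₂), tP P w x * jx w.1.1 (jy w.1.2 (k w.2.1 w.2.2)) (x, x) =
      P.dg k x := by
  rw [form_eq P x fun o o' p q => jx o (jy o' (k p q)) (x, x)]
  unfold Pf.dg
  refine Finset.sum_congr rfl fun p _ => Finset.sum_congr rfl fun q _ => ?_
  simp only [jx_none, jx_some, jy_none, jy_some]

theorem tP_cont {P : Pf n m₁ m₂} (hP : PfOk P) (w : Z n (Fin m₁) (Fin m₂)) :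
    Continuous (tP P w) := by
  obtain ⟨⟨o, o'⟩, p, q⟩ := w
  cases o with
  | none => cases o' with
    | none => exact (hP.sc p q).continuous
    | some j => exact (hP.sb j p q).continuous
  | some i => cases o' with
    | none => exact (hP.sa i p q).continuous
    | some j => exact (hP.sh i j p q).continuous

/-- The scale. -/
def r0 (n : ℕ) : ℝ := 1 / (32 * (n + 1))

theorem r0_pos : 0 < r0 n := by unfold r0; positivity

theorem ball_sub {p : V n} (hp : p ∈ Bs n (3 / 4)) : Metric.ball p (2 * r0 n) ⊆ Bc n := by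
  intro y hy
  have h0 : (0 : ℝ) ≤ n := by positivity
  have h1 : ∀ j, y j ^ 2 ≤ 10 / 9 * p j ^ 2 + 10 * (2 * r0 n) ^ 2 := by
    intro j
    have h2 : |y j - p j| ≤ 2 * r0 n := by
      have h3 := dist_le_pi_dist y p j
      rw [Real.dist_eq] at h3
      exact h3.trans (Metric.mem_ball.1 hy).le
    have h4 : (y j - p j) ^ 2 ≤ (2 * r0 n) ^ 2 := sq_le_sq' (by linarith [abs_le.1 h2 |>.1])
      (abs_le.1 h2).2
    nlinarith [sq_nonneg (9 * y j - 10 * p j)]
  have h5 : sq y ≤ 10 / 9 * sq p + n * (10 * (2 * r0 n) ^ 2) := by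
    unfold sq
    calc ∑ j, y j ^ 2 ≤ ∑ j, (10 / 9 * p j ^ 2 + 10 * (2 * r0 n) ^ 2) :=
          Finset.sum_le_sum fun j _ => h1 j
      _ = 10 / 9 * ∑ j, p j ^ 2 + n * (10 * (2 * r0 n) ^ 2) := by
          rw [Finset.sum_add_distrib, ← Finset.mul_sum, Finset.sum_const, Finset.card_univ,
            Fintype.card_fin, nsmul_eq_mul]
  have h6 : (n : ℝ) * (10 * (2 * r0 n) ^ 2) ≤ 9 / 256 := by
    unfold r0
    rw [show (n : ℝ) * (10 * (2 * (1 / (32 * (n + 1)))) ^ 2) = 10 * n / (256 * (n + 1) ^ 2) by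
      field_simp; ring]
    rw [div_le_iff₀ (by positivity)]
    nlinarith [sq_nonneg ((n : ℝ) - 1)]
  have h7 : sq p < (3 / 4) ^ 2 := hp
  show sq y ≤ 169 / 256
  linarith

/-- The zero coefficients. -/
def z0 (n m : ℕ) : Co n m := ⟨fun _ _ => 0, fun _ => 0⟩

theorem CoOk_zero (K : ℕ) {M : ℝ} (hM : 0 ≤ M) : CoOk K M M (z0 n m) := by
  refine ⟨fun l p q => contDiff_const, fun p q => contDiff_const, fun l p q => ?_,
    fun p q => ?_⟩ <;>
  · intro l _ x
    show ‖iteratedFDeriv ℝ l (fun _ : V n => (0 : ℝ)) x‖ ≤ M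
    simpa using hM

theorem sl_dx {u : V n → ℝ} {z : VV n} (hu : DifferentiableAt ℝ u z.1) (i : Fin n) :
    dx i (fun z : VV n => u z.1) z = pd i u z.1 := by
  unfold dx pd
  have h : HasFDerivAt (fun z : VV n => u z.1) ((fderiv ℝ u z.1).comp
      (ContinuousLinearMap.fst ℝ (V n) (V n))) z := hu.hasFDerivAt.comp z hasFDerivAt_fst
  rw [h.fderiv]
  simp

theorem sl_dy {u : V n → ℝ} {z : VV n} (hu : DifferentiableAt ℝ u z.1) (i : Fin n) :
    dy i (fun z : VV n => u z.1) z = 0 := by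
  unfold dy
  have h : HasFDerivAt (fun z : VV n => u z.1) ((fderiv ℝ u z.1).comp
      (ContinuousLinearMap.fst ℝ (V n) (V n))) z := hu.hasFDerivAt.comp z hasFDerivAt_fst
  rw [h.fderiv]
  simp

theorem single_le (i : Fin n) : ‖((Pi.single i 1, 0) : VV n)‖ ≤ 1 := by
  rw [Prod.norm_mk, norm_zero, max_eq_left (norm_nonneg _)]
  rw [pi_norm_le_iff_of_nonneg zero_le_one]
  intro j
  by_cases h : j = i
  · subst h; simp
  · rw [Pi.single_eq_of_ne h]; simp

/-- The interior estimate from the row INPG. -/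
theorem ie_of {K : ℕ} {ε M C : ℝ} (hM : 0 < M) (hC : 0 < C)
    (hI : ∀ (s₁ s₂ : MF n) (e₁ e₂ : Co n m), SmM s₁ → SmM s₂ →
      (∀ i j, Cl K ε (fun x => s₁ x i j - (1 : Matrix (Fin n) (Fin n) ℝ) i j)) →
      (∀ i j, Cl K ε (fun x => s₂ x i j - (1 : Matrix (Fin n) (Fin n) ℝ) i j)) →
      CoOk K M M e₁ → CoOk K M M e₂ →
      ∀ (z₀ : VV n) (lam : ℝ), 1 ≤ lam → ∀ w F : Fin m → VV n → ℝ,
      (∀ p, ContDiffOn ℝ ∞ (w p) (Metric.ball z₀ (2 / lam))) →
      (∀ p, ContDiffOn ℝ ∞ (F p) (Metric.ball z₀ (2 / lam))) →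
      (∀ z ∈ Metric.ball z₀ (2 / lam), ∀ p, LxG s₁ e₁ w p z + LyG s₂ e₂ w p z = F p z) →
      (∀ p, IntegrableOn (fun z => w p z ^ 2) (Metric.ball z₀ (2 / lam))) →
      ∀ B : ℝ, (∀ p, ∀ l ≤ K, ∀ z ∈ Metric.ball z₀ (2 / lam),
        ‖iteratedFDeriv ℝ l (F p) z‖ ≤ B * lam ^ l) →
      ∀ p, ∀ l ≤ 2, ‖iteratedFDeriv ℝ l (w p) z₀‖ ≤
        C * (lam ^ (n + l) * √(∑ q, ∫ z in Metric.ball z₀ (2 / lam), w q z ^ 2)
          + B * lam ^ l / lam ^ 2))
    {s : MF n} {e : Co n m} (hs : SmM s)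
    (hs1 : ∀ i j, Cl K ε (fun x => s x i j - (1 : Matrix (Fin n) (Fin n) ℝ) i j))
    (he : CoOk K M M e) : IE (tS s e) := by
  set lam : ℝ := 1 / r0 n with hlam
  have hr := r0_pos (n := n)
  have hlam0 : 0 < lam := by positivity
  have hlam1 : 1 ≤ lam := by
    rw [hlam, one_le_div hr]
    unfold r0
    rw [div_le_one (by positivity)]
    have : (0 : ℝ) ≤ n := by positivity
    linarith
  have h2l : 2 / lam = 2 * r0 n := by rw [hlam]; field_simp
  set v := volume.real (Bc n) with hv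
  have hv0 : 0 ≤ v := measureReal_nonneg
  refine ⟨C * (lam ^ (n + 1) * √v) + 1, by positivity, fun u hu hL p hp o a => ?_⟩
  set J := ∑ a, ∫ x in Bc n, u a x ^ 2 with hJ
  have hJ0 : 0 ≤ J := Finset.sum_nonneg fun a _ => integral_nonneg fun x => sq_nonneg _
  have hball : Metric.ball ((p, p) : VV n) (2 / lam) ⊆ Bc n ×ˢ Bc n := by
    rw [h2l, ← ball_prod_same]
    exact prod_mono (ball_sub hp) (ball_sub hp)
  have hballU : ∀ z ∈ Metric.ball ((p, p) : VV n) (2 / lam), z.1 ∈ Bn n := fun z hz =>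
    Bc_subset (hball hz).1
  have hw : ∀ q, ContDiffOn ℝ ∞ (fun z : VV n => u q z.1) (Metric.ball (p, p) (2 / lam)) :=
    fun q => (hu q).comp contDiff_fst.contDiffOn hballU
  have heq : ∀ z ∈ Metric.ball ((p, p) : VV n) (2 / lam), ∀ q,
      LxG s e (fun q z => u q z.1) q z + LyG s (z0 n m) (fun q z => u q z.1) q z = 0 := by
    intro z hz q
    have hB := Metric.isOpen_ball (x := ((p, p) : VV n)) (ε := 2 / lam)
    have hz1 := hballU z hz
    have hd1 : ∀ q i, ∀ z ∈ Metric.ball ((p, p) : VV n) (2 / lam),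
        dx i (fun z : VV n => u q z.1) z = pd i (u q) z.1 := fun q i z hz =>
      sl_dx (dAtB (hu q) (hballU z hz)) i
    have hd2 : ∀ q i, ∀ z ∈ Metric.ball ((p, p) : VV n) (2 / lam),
        dy i (fun z : VV n => u q z.1) z = 0 := fun q i z hz =>
      sl_dy (dAtB (hu q) (hballU z hz)) i
    have hd3 : ∀ i j, dx i (dx j (fun z : VV n => u q z.1)) z = pd i (pd j (u q)) z.1 := by
      intro i j
      have h1 : dx j (fun z : VV n => u q z.1) =ᶠ[𝓝 z] fun z => pd j (u q) z.1 :=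
        Filter.eventually_of_mem (hB.mem_nhds hz) (hd1 q j)
      show fderiv ℝ (dx j (fun z : VV n => u q z.1)) z _ = _
      rw [h1.fderiv_eq]
      exact sl_dx (dAtB (contDiffOn_pd isOpen_Bn (hu q) j) hz1) i
    have hd4 : ∀ i j, dy i (dy j (fun z : VV n => u q z.1)) z = 0 := by
      intro i j
      have h1 : dy j (fun z : VV n => u q z.1) =ᶠ[𝓝 z] fun _ => 0 :=
        Filter.eventually_of_mem (hB.mem_nhds hz) (hd2 q j)
      show fderiv ℝ (dy j (fun z : VV n => u q z.1)) z _ = _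
      rw [h1.fderiv_eq]
      simp
    have h1 : LxG s e (fun q z => u q z.1) q z = LvG s e u q z.1 := by
      unfold LxG LvG Lx Lv
      simp only [hd3]
      congr 1
      exact Finset.sum_congr rfl fun q' _ => by simp only [hd1 q' _ z hz]
    have h2 : LyG s (z0 n m) (fun q z => u q z.1) q z = 0 := by
      unfold LyG Ly z0
      simp only [hd4]
      simp
    rw [h1, h2, add_zero, ← op_tS]
    exact hL q z.1 hz1
  have hint : ∀ q, IntegrableOn (fun z : VV n => u q z.1 ^ 2) (Metric.ball (p, p) (2 / lam)) := by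
    intro q
    refine (ContinuousOn.integrableOn_compact (isCompact_Bc.prod isCompact_Bc) ?_).mono_set hball
    exact (((hu q).continuousOn.mono Bc_subset).comp continuous_fst.continuousOn
      fun z hz => hz.1).pow 2
  have key := hI s s e (z0 n m) hs hs hs1 hs1 he (CoOk_zero K hM.le) (p, p) lam hlam1
    (fun q z => u q z.1) (fun _ _ => 0) hw (fun _ => contDiffOn_const) heq hint 0 (fun q l _ z _ => by
      rw [zero_mul]
      show ‖iteratedFDeriv ℝ l (fun _ : VV n => (0 : ℝ)) z‖ ≤ 0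
      simp)
  have hJle : √(∑ q, ∫ z in Metric.ball ((p, p) : VV n) (2 / lam), u q z.1 ^ 2) ≤ √v * √J := by
    rw [← Real.sqrt_mul hv0]
    refine Real.sqrt_le_sqrt ?_
    rw [hJ, Finset.mul_sum]
    refine Finset.sum_le_sum fun q _ => ?_
    have h1 : ∫ z in Metric.ball ((p, p) : VV n) (2 / lam), u q z.1 ^ 2 ≤
        ∫ z in Bc n ×ˢ Bc n, u q z.1 ^ 2 := by
      refine setIntegral_mono_set ?_ (Filter.Eventually.of_forall fun z => sq_nonneg _)
        (Filter.Eventually.of_forall hball)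
      refine ContinuousOn.integrableOn_compact (isCompact_Bc.prod isCompact_Bc) ?_
      exact (((hu q).continuousOn.mono Bc_subset).comp continuous_fst.continuousOn
        fun z hz => hz.1).pow 2
    refine h1.trans (le_of_eq ?_)
    have h2 := setIntegral_prod_mul (μ := (volume : Measure (V n))) (ν := (volume : Measure (V n)))
      (fun x => u q x ^ 2) (fun _ => (1 : ℝ)) (Bc n) (Bc n)
    simp only [mul_one, setIntegral_const, smul_eq_mul] at h2
    rw [mul_comm]
    exact h2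
  have hfin : ∀ l ≤ 1, ‖iteratedFDeriv ℝ l (fun z : VV n => u a z.1) (p, p)‖ ≤
      (C * (lam ^ (n + 1) * √v) + 1) * √J := by
    intro l hl
    refine (key a l (by omega)).trans ?_
    rw [zero_mul, zero_div, add_zero]
    have h1 : lam ^ (n + l) ≤ lam ^ (n + 1) := pow_le_pow_right₀ hlam1 (by omega)
    calc C * (lam ^ (n + l) * √(∑ q, ∫ z in Metric.ball ((p, p) : VV n) (2 / lam), u q z.1 ^ 2)) ≤
          C * (lam ^ (n + 1) * (√v * √J)) := by gcongr
      _ ≤ (C * (lam ^ (n + 1) * √v) + 1) * √J := by nlinarith [Real.sqrt_nonneg J]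
  cases o with
  | none =>
    have h1 := hfin 0 (by omega)
    rw [norm_iteratedFDeriv_zero] at h1
    exact h1
  | some i =>
    have h1 := hfin 1 (by omega)
    have hpB : p ∈ Bn n := Bc_subset (Bs_subset hp)
    have h2 : pd i (u a) p = dx i (fun z : VV n => u a z.1) (p, p) :=
      (sl_dx (z := (p, p)) (dAtB (hu a) hpB) i).symm
    show |pd i (u a) p| ≤ _
    rw [h2]
    refine le_trans ?_ h1
    rw [norm_iteratedFDeriv_one]
    have h3 := (fderiv ℝ (fun z : VV n => u a z.1) (p, p)).le_opNorm (Pi.single i 1, 0)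
    exact h3.trans (mul_le_of_le_one_right (norm_nonneg _) (single_le i))

/-- Solutions on the ball of radius `3/4` are cut off. -/
theorem LvG_congr {s : MF n} {e : Co n m} {u v : Fin m → V n → ℝ} {O : Set (V n)} (hO : IsOpen O)
    (h : ∀ p, ∀ x ∈ O, u p x = v p x) {x : V n} (hx : x ∈ O) (p : Fin m) :
    LvG s e u p x = LvG s e v p x := by
  have h1 : ∀ p, ∀ x ∈ O, ∀ i, pd i (u p) x = pd i (v p) x := fun p x hx i =>
    pd_congr (Filter.eventually_of_mem (hO.mem_nhds hx) (h p)) i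
  have h2 : ∀ p i j, pd i (pd j (u p)) x = pd i (pd j (v p)) x := fun p i j =>
    pd_congr (Filter.eventually_of_mem (hO.mem_nhds hx) fun y hy => h1 p y hy j) i
  unfold LvG Lv
  simp only [h2, h1 _ x hx, h _ x hx]

end Vale.Agent.P088.HY.G

namespace Vale.Agent.P088.HY

open Vale.Agent.P088.LR G

/-- Row ORTG. -/
theorem rowORTG (hI : RowINPG) : RowORTG := by
  intro n m₁ m₂
  obtain ⟨K₁, ε₁, hε₁, h₁⟩ := hI n m₁
  obtain ⟨K₂, ε₂, hε₂, h₂⟩ := hI n m₂
  refine ⟨max K₁ K₂, min ε₁ ε₂, lt_min hε₁ hε₂, ?_⟩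
  intro M hM s₁ s₂ e₁ e₂ hs₁ hs₂ hc₁ hc₂ he₁ he₂ P hP hId k hk hk1 hk2
  obtain ⟨C₁, hC₁, h₁⟩ := h₁ M hM
  obtain ⟨C₂, hC₂, h₂⟩ := h₂ M hM
  have hcl : ∀ {K K' : ℕ} {ε ε' : ℝ} {f : V n → ℝ}, K ≤ K' → ε' ≤ ε → Cl K' ε' f → Cl K ε f :=
    fun hK hε h l hl x => (h l (hl.trans hK) x).trans hε
  have hco : ∀ {m K K' : ℕ} {e : Co n m}, K ≤ K' → CoOk K' M M e → CoOk K M M e :=
    fun hK h => ⟨h.sb, h.sc, fun l p q => hcl hK le_rfl (h.bb l p q),
      fun p q => hcl hK le_rfl (h.bc p q)⟩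
  have hS₁ : G.IE (G.tS s₁ e₁) := G.ie_of hM hC₁ h₁ hs₁
    (fun i j => hcl (le_max_left _ _) (min_le_left _ _) (hc₁ i j)) (hco (le_max_left _ _) he₁)
  have hS₂ : G.IE (G.tS s₂ e₂) := G.ie_of hM hC₂ h₂ hs₂
    (fun i j => hcl (le_max_right _ _) (min_le_right _ _) (hc₂ i j))
    (hco (le_max_right _ _) he₂)
  have hmain := G.ortG hS₁ hS₂ (c := G.tP P) (fun w => (G.tP_cont hP w).continuousOn)
    (fun u v hu hv hLu hLv => ?_) hk ?_ ?_
  · simp only [G.dg_eq] at hmain
    exact hmain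
  · simp only [G.uv_eq]
    have hO := isOpen_Bs (n := n) (3 / 4)
    have hcu : ∀ p, ∀ x ∈ Bs n (3 / 4), G.chi x * u p x = u p x := fun p x hx => by
      rw [G.chi_one (G.Bs_subset hx), one_mul]
    have hcv : ∀ p, ∀ x ∈ Bs n (3 / 4), G.chi x * v p x = v p x := fun p x hx => by
      rw [G.chi_one (G.Bs_subset hx), one_mul]
    have h := hId (fun p x => G.chi x * u p x) (fun p x => G.chi x * v p x)
      (fun p => G.cut_one (hu p)) (fun p => G.cut_one (hv p))
      (fun x hx p => by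
        rw [G.LvG_congr hO hcu hx p, ← G.op_tS]
        exact hLu p x (G.Bc_subset (G.Bs_subset hx)))
      (fun x hx p => by
        rw [G.LvG_congr hO hcv hx p, ← G.op_tS]
        exact hLv p x (G.Bc_subset (G.Bs_subset hx)))
    rw [← h]
    refine setIntegral_congr_fun hO.measurableSet fun x hx => ?_
    have h1 : ∀ p i, pd i (fun x => G.chi x * u p x) x = pd i (u p) x := fun p i =>
      pd_congr (Filter.eventually_of_mem (hO.mem_nhds hx) (hcu p)) i
    have h2 : ∀ p i, pd i (fun x => G.chi x * v p x) x = pd i (v p) x := fun p i =>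
      pd_congr (Filter.eventually_of_mem (hO.mem_nhds hx) (hcv p)) i
    show P.uv u v x = P.uv (fun p x => G.chi x * u p x) (fun p x => G.chi x * v p x) x
    unfold Pf.uv
    simp only [h1, h2, hcu _ x hx, hcv _ x hx]
  · intro a b z hz
    rw [G.opx_tS]
    exact hk1 z hz a b
  · intro a b z hz
    rw [G.opy_tS]
    exact hk2 z hz a b

end Vale.Agent.P088.HY
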