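import Vale.Agent.P088.R2.H948.G.Dom

/-!
# Cut-off and parametric integrals, larger balls
-/

open MeasureTheory Set
open scoped ContDiff Matrix Topology

noncomputable section

namespace Vale.Agent.P088.HY.G

open Vale.Agent.P088.LR

variable {n : ℕ}

/-- The closed Euclidean ball of radius `13/16`. -/
def Bc (n : ℕ) : Set (V n) := {x | sq x ≤ 169 / 256}

theorem isClosed_Bc : IsClosed (Bc n) := isClosed_le continuous_sq continuous_const

theorem isCompact_Bc : IsCompact (Bc n) := by
  refine (isCompact_closedBall (0 : V n) 1).of_isClosed_subset isClosed_Bc fun x hx => ?_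
  rw [mem_closedBall_zero_iff, pi_norm_le_iff_of_nonneg zero_le_one]
  intro i
  have h1 : x i ^ 2 ≤ sq x := Finset.single_le_sum (f := fun j => x j ^ 2)
    (fun j _ => sq_nonneg _) (Finset.mem_univ i)
  have h2 : x i ^ 2 ≤ 169 / 256 := h1.trans hx
  rw [Real.norm_eq_abs, ← sq_le_one_iff_abs_le_one]
  linarith

theorem measurableSet_Bc : MeasurableSet (Bc n) := isClosed_Bc.measurableSet

theorem Bc_subset : Bc n ⊆ Bn n := fun x (hx : sq x ≤ 169 / 256) =>
  show sq x < (7 / 8) ^ 2 by norm_num; linarith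

theorem Bs_subset : Bs n (3 / 4) ⊆ Bc n := fun x (hx : sq x < (3 / 4) ^ 2) =>
  show sq x ≤ 169 / 256 by linarith

theorem contDiff_sq : ContDiff ℝ ∞ (sq : V n → ℝ) := by
  unfold sq
  exact ContDiff.sum fun i _ => (contDiff_apply ℝ ℝ i).pow 2

theorem memLp_Bc {f : V n → ℝ} (hf : ContinuousOn f (Bc n)) :
    MemLp f 2 (volume.restrict (Bc n)) := by
  have hfin : IsFiniteMeasure (volume.restrict (Bc n)) :=
    ⟨by rw [Measure.restrict_apply_univ]; exact isCompact_Bc.measure_lt_top⟩
  obtain ⟨B, hB⟩ := isCompact_Bc.exists_bound_of_continuousOn hf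
  exact MemLp.of_bound (hf.aestronglyMeasurable measurableSet_Bc) B
    ((ae_restrict_iff' measurableSet_Bc).2 (Filter.Eventually.of_forall hB))

theorem cont_diag {f : VV n → ℝ} (hf : ContDiffOn ℝ ∞ f (Un n)) :
    ContinuousOn (fun p => f (p, p)) (Bc n) :=
  hf.continuousOn.comp (f := fun p : V n => (p, p)) (by fun_prop) fun _ hp =>
    ⟨Bc_subset hp, Bc_subset hp⟩

/-- The cut-off. -/
def chi (x : V n) : ℝ := Real.smoothTransition ((182 / 256 - sq x) * (256 / 13))

theorem contDiff_chi : ContDiff ℝ ∞ (chi : V n → ℝ) :=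
  Real.smoothTransition.contDiff.comp ((contDiff_const.sub contDiff_sq).mul contDiff_const)

theorem chi_one {x : V n} (hx : x ∈ Bc n) : chi x = 1 := by
  refine Real.smoothTransition.one_of_one_le ?_
  have h : sq x ≤ 169 / 256 := hx
  linarith

theorem chi_zero {x : V n} (hx : 182 / 256 ≤ sq x) : chi x = 0 := by
  refine Real.smoothTransition.zero_of_nonpos ?_
  linarith

/-- The support of the cut-off. -/
def Bd (n : ℕ) : Set (V n) := {x | sq x ≤ 182 / 256}

theorem isCompact_Bd : IsCompact (Bd n) := by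
  refine (isCompact_closedBall (0 : V n) 1).of_isClosed_subset
    (isClosed_le continuous_sq continuous_const) fun x hx => ?_
  rw [mem_closedBall_zero_iff, pi_norm_le_iff_of_nonneg zero_le_one]
  intro i
  have h1 : x i ^ 2 ≤ sq x := Finset.single_le_sum (f := fun j => x j ^ 2)
    (fun j _ => sq_nonneg _) (Finset.mem_univ i)
  have h2 : x i ^ 2 ≤ 182 / 256 := h1.trans hx
  rw [Real.norm_eq_abs, ← sq_le_one_iff_abs_le_one]
  linarith

theorem cut_pair {E : Type*} [NormedAddCommGroup E] [NormedSpace ℝ E] {g : E × V n → ℝ}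
    {O : Set E} (hO : IsOpen O) (hg : ContDiffOn ℝ ∞ g (O ×ˢ Bn n)) :
    ContDiffOn ℝ ∞ (fun z : E × V n => chi z.2 * g z) (O ×ˢ univ) := by
  rintro ⟨p, x⟩ ⟨hp, -⟩
  refine ContDiffAt.contDiffWithinAt ?_
  by_cases hx : x ∈ Bn n
  · exact (contDiff_chi.comp contDiff_snd).contDiffAt.mul
      (hg.contDiffAt ((hO.prod isOpen_Bn).mem_nhds ⟨hp, hx⟩))
  · have h1 : {z : E × V n | 182 / 256 < sq z.2} ∈ 𝓝 (p, x) := by
      refine (isOpen_lt continuous_const (continuous_sq.comp continuous_snd)).mem_nhds ?_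
      have : ¬ sq x < (7 / 8) ^ 2 := hx
      show 182 / 256 < sq x
      norm_num at this ⊢
      linarith
    have h2 : (fun z : E × V n => chi z.2 * g z) =ᶠ[𝓝 (p, x)] fun _ => 0 := by
      filter_upwards [h1] with z hz
      rw [chi_zero (le_of_lt hz), zero_mul]
    exact contDiffAt_const.congr_of_eventuallyEq h2

theorem cut_one {e : V n → ℝ} (he : ContDiffOn ℝ ∞ e (Bn n)) :
    ContDiff ℝ ∞ fun x => chi x * e x := by
  rw [contDiff_iff_contDiffAt]
  intro x
  by_cases hx : x ∈ Bn n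
  · exact contDiff_chi.contDiffAt.mul (he.contDiffAt (isOpen_Bn.mem_nhds hx))
  · have h1 : {z : V n | 182 / 256 < sq z} ∈ 𝓝 x := by
      refine (isOpen_lt continuous_const continuous_sq).mem_nhds ?_
      have : ¬ sq x < (7 / 8) ^ 2 := hx
      show 182 / 256 < sq x
      norm_num at this ⊢
      linarith
    have h2 : (fun z : V n => chi z * e z) =ᶠ[𝓝 x] fun _ => 0 := by
      filter_upwards [h1] with z hz
      rw [chi_zero (le_of_lt hz), zero_mul]
    exact contDiffAt_const.congr_of_eventuallyEq h2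

theorem param {k : VV n → ℝ} (hk : ContDiffOn ℝ ∞ k (Un n)) {e : V n → ℝ}
    (he : ContinuousOn e (Bc n)) :
    ContDiffOn ℝ ∞ (fun y => ∫ x in Bc n, e x * k (x, y)) (Bn n) ∧
      ∀ y ∈ Bn n, ∀ i, pd i (fun y => ∫ x in Bc n, e x * k (x, y)) y =
        ∫ x in Bc n, e x * dy i k (x, y) := by
  have hei : Integrable e (volume.restrict (Bc n)) := he.integrableOn_compact isCompact_Bc
  have hsw : ContDiffOn ℝ ∞ (fun z : V n × V n => k (z.2, z.1)) (Bn n ×ˢ Bn n) :=
    hk.comp (contDiff_snd.prodMk contDiff_fst).contDiffOn fun z hz => ⟨hz.2, hz.1⟩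
  have hK : ContDiffOn ℝ ∞ (Function.uncurry fun y x : V n => chi x * k (x, y))
      (Bn n ×ˢ univ) := cut_pair isOpen_Bn hsw
  have hK0 : ∀ p ∈ Bn n, ∀ x : V n, x ∉ Bd n → chi x * k (x, p) = 0 := by
    intro p _ x hx
    rw [chi_zero (le_of_lt (not_le.1 hx)), zero_mul]
  have heq : (fun y => ∫ x in Bc n, e x * k (x, y)) =
      fun y => ∫ x in Bc n, (chi x * k (x, y)) * e x := by
    funext y
    refine setIntegral_congr_fun measurableSet_Bc fun x hx => ?_
    show e x * k (x, y) = (chi x * k (x, y)) * e x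
    rw [chi_one hx]; ring
  constructor
  · rw [heq]
    exact P288.X3.contDiffOn_param isOpen_Bn isCompact_Bd hK0 hei hK
  · intro y hy i
    rw [heq]
    have h1 := P288.X3.fderiv_param isOpen_Bn isCompact_Bd hK0 hei hK hy (Pi.single i 1)
    refine h1.trans ?_
    refine setIntegral_congr_fun measurableSet_Bc fun x hx => ?_
    show fderiv ℝ (fun y => chi x * k (x, y)) y (Pi.single i 1) * e x = e x * dy i k (x, y)
    have h2 : (fun y => chi x * k (x, y)) = fun y => k (x, y) := by
      funext y; rw [chi_one hx, one_mul]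
    rw [h2, mul_comm]
    congr 1
    exact pd_slice_y (dAt hk ⟨Bc_subset hx, hy⟩) i

end Vale.Agent.P088.HY.G
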