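import Vale.Agent.P088.R2.H948.Pair

/-!
# The open ball of radius `7/8` and pairs of its points
-/

open MeasureTheory Set
open scoped ContDiff Matrix Topology

noncomputable section

namespace Vale.Agent.P088.HY.G

open Vale.Agent.P088.LR

variable {n : ℕ}

/-- The open Euclidean ball of radius `7/8`. -/
def Bn (n : ℕ) : Set (V n) := Bs n (7 / 8)

/-- Pairs of its points. -/
def Un (n : ℕ) : Set (VV n) := Bn n ×ˢ Bn n

theorem isOpen_Bn : IsOpen (Bn n) := isOpen_Bs _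

theorem isOpen_Un : IsOpen (Un n) := isOpen_Bn.prod isOpen_Bn

theorem contDiffOn_dx {f : VV n → ℝ} (hf : ContDiffOn ℝ ∞ f (Un n)) (i : Fin n) :
    ContDiffOn ℝ ∞ (dx i f) (Un n) :=
  (hf.fderiv_of_isOpen isOpen_Un (by simp)).clm_apply contDiffOn_const

theorem contDiffOn_dy {f : VV n → ℝ} (hf : ContDiffOn ℝ ∞ f (Un n)) (i : Fin n) :
    ContDiffOn ℝ ∞ (dy i f) (Un n) :=
  (hf.fderiv_of_isOpen isOpen_Un (by simp)).clm_apply contDiffOn_const

theorem dAt {f : VV n → ℝ} (hf : ContDiffOn ℝ ∞ f (Un n)) {z : VV n} (hz : z ∈ Un n) :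
    DifferentiableAt ℝ f z :=
  (hf.contDiffAt (isOpen_Un.mem_nhds hz)).differentiableAt (by simp)

theorem dAtB {f : V n → ℝ} (hf : ContDiffOn ℝ ∞ f (Bn n)) {x : V n} (hx : x ∈ Bn n) :
    DifferentiableAt ℝ f x :=
  (hf.contDiffAt (isOpen_Bn.mem_nhds hx)).differentiableAt (by simp)

theorem slice_x {f : VV n → ℝ} (hf : ContDiffOn ℝ ∞ f (Un n)) {y : V n} (hy : y ∈ Bn n) :
    ContDiffOn ℝ ∞ (fun x => f (x, y)) (Bn n) :=
  hf.comp (contDiff_id.prodMk contDiff_const).contDiffOn fun _ hx => ⟨hx, hy⟩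

theorem slice_y {f : VV n → ℝ} (hf : ContDiffOn ℝ ∞ f (Un n)) {x : V n} (hx : x ∈ Bn n) :
    ContDiffOn ℝ ∞ (fun y => f (x, y)) (Bn n) :=
  hf.comp (contDiff_const.prodMk contDiff_id).contDiffOn fun _ hy => ⟨hx, hy⟩

theorem pd_congrB {F : Type*} [NormedAddCommGroup F] [NormedSpace ℝ F] {f g : V n → F}
    (h : ∀ x ∈ Bn n, f x = g x) {x : V n} (hx : x ∈ Bn n) (i : Fin n) : pd i f x = pd i g x :=
  pd_congr (Filter.eventually_of_mem (isOpen_Bn.mem_nhds hx) h) i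

theorem dx_dy_comm {f : VV n → ℝ} (hf : ContDiffOn ℝ ∞ f (Un n)) {z : VV n} (hz : z ∈ Un n)
    (i j : Fin n) : dx i (dy j f) z = dy j (dx i f) z := by
  have h1 : DifferentiableAt ℝ (fderiv ℝ f) z :=
    ((hf.fderiv_of_isOpen (m := ∞) isOpen_Un (by simp)).contDiffAt
      (isOpen_Un.mem_nhds hz)).differentiableAt (by simp)
  have h2 : IsSymmSndFDerivAt ℝ f z := by
    refine (hf.contDiffAt (isOpen_Un.mem_nhds hz)).isSymmSndFDerivAt ?_
    rw [minSmoothness_of_isRCLikeNormedField]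
    exact ENat.LEInfty.out
  unfold dx dy
  rw [fderiv_clm_apply h1 (differentiableAt_const _), fderiv_clm_apply h1
    (differentiableAt_const _)]
  simp only [fderiv_fun_const, Pi.zero_apply, ContinuousLinearMap.comp_zero, zero_add,
    ContinuousLinearMap.flip_apply]
  exact h2 _ _

end Vale.Agent.P088.HY.G
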