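import Vale.Agent.P088.R2.H948.G.Sys

/-!
# Orthogonality for doubly harmonic functions, general systems
-/

open MeasureTheory Set
open scoped ContDiff Matrix Topology

noncomputable section

set_option linter.unusedSectionVars false

namespace Vale.Agent.P088.HY.G

open Vale.Agent.P088.LR

variable {n : ℕ} {ι κ : Type} [Fintype ι] [Fintype κ]

/-- Finite nets in the `L²` sense. -/
theorem net {k : ι → κ → VV n → ℝ} (hk : ∀ a b, ContDiffOn ℝ ∞ (k a b) (Un n)) {δ : ℝ}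
    (hδ : 0 < δ) : ∃ t : Finset (V n), (∀ y ∈ t, y ∈ Bc n) ∧ ∀ y ∈ Bc n, ∃ y' ∈ t, ∀ b,
      ∑ a, ∫ x in Bc n, (k a b (x, y) - k a b (x, y')) ^ 2 ≤ δ ^ 2 := by
  set m := volume.real (Bc n) with hm
  have hm0 : 0 ≤ m := measureReal_nonneg
  set A : ℝ := (Fintype.card ι * (m + 1) + 1) with hA
  have hc0 : (0 : ℝ) ≤ Fintype.card ι := by positivity
  have hA1 : Fintype.card ι * m ≤ A := by rw [hA]; nlinarith
  have hA0 : 0 < A := by positivity
  have hδ' : 0 < δ / √A := by positivity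
  have hkc : ContinuousOn (fun z (q : ι × κ) => k q.1 q.2 z) (Bc n ×ˢ Bc n) :=
    continuousOn_pi.2 fun q => (hk q.1 q.2).continuousOn.mono (prod_mono Bc_subset Bc_subset)
  have huc := (isCompact_Bc.prod isCompact_Bc).uniformContinuousOn_of_continuous hkc
  rw [Metric.uniformContinuousOn_iff] at huc
  obtain ⟨ρ, hρ, hu⟩ := huc _ hδ'
  obtain ⟨t, ht, htf, hcov⟩ := (isCompact_Bc (n := n)).finite_cover_balls hρ
  refine ⟨htf.toFinset, fun y hy => ht (htf.mem_toFinset.1 hy), fun y hy => ?_⟩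
  obtain ⟨y', hy', hyy⟩ := mem_iUnion₂.1 (hcov hy)
  refine ⟨y', htf.mem_toFinset.2 hy', fun b => ?_⟩
  have h1 : ∀ a, ∀ x ∈ Bc n, (k a b (x, y) - k a b (x, y')) ^ 2 ≤ (δ / √A) ^ 2 := by
    intro a x hx
    have h2 := hu (x, y) ⟨hx, hy⟩ (x, y') ⟨hx, ht hy'⟩ (by
      rw [Prod.dist_eq, dist_self, max_eq_right dist_nonneg]; exact hyy)
    have h3 := (dist_le_pi_dist _ _ (a, b)).trans_lt h2
    rw [Real.dist_eq] at h3
    exact sq_le_sq' (by linarith [(abs_lt.1 h3).1]) (abs_lt.1 h3).2.le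
  have hc : ∀ a, ContinuousOn (fun x => (k a b (x, y) - k a b (x, y')) ^ 2) (Bc n) := fun a =>
    (((slice_x (hk a b) (Bc_subset hy)).continuousOn.mono Bc_subset).sub
      ((slice_x (hk a b) (Bc_subset (ht hy'))).continuousOn.mono Bc_subset)).pow 2
  have h4 : ∀ a, ∫ x in Bc n, (k a b (x, y) - k a b (x, y')) ^ 2 ≤ m * (δ / √A) ^ 2 := by
    intro a
    calc ∫ x in Bc n, (k a b (x, y) - k a b (x, y')) ^ 2 ≤ ∫ x in Bc n, (δ / √A) ^ 2 :=
          setIntegral_mono_on ((hc a).integrableOn_compact isCompact_Bc)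
            (integrableOn_const isCompact_Bc.measure_lt_top.ne) measurableSet_Bc (h1 a)
      _ = m * (δ / √A) ^ 2 := by rw [setIntegral_const, smul_eq_mul]
  calc ∑ a, ∫ x in Bc n, (k a b (x, y) - k a b (x, y')) ^ 2 ≤ ∑ _a : ι, m * (δ / √A) ^ 2 :=
        Finset.sum_le_sum fun a _ => h4 a
    _ = Fintype.card ι * m * δ ^ 2 / A := by
        rw [Finset.sum_const, Finset.card_univ, nsmul_eq_mul, div_pow, Real.sq_sqrt hA0.le]
        ring
    _ ≤ δ ^ 2 := by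
        rw [div_le_iff₀ hA0]
        nlinarith [sq_nonneg δ]

/-- Approximation of `k` by sums of products of solutions; `R` is the remainder. -/
theorem approx {S₁ : Sys n ι} {S₂ : Sys n κ} {k : ι → κ → VV n → ℝ}
    (hk : ∀ a b, ContDiffOn ℝ ∞ (k a b) (Un n)) (h1 : ∀ a b, ∀ z ∈ Un n, opx S₁ k a b z = 0)
    (h2 : ∀ a b, ∀ z ∈ Un n, opy S₂ k a b z = 0) {δ : ℝ} (hδ : 0 < δ) :
    ∃ (d : ℕ) (e : Fin d → ι → V n → ℝ) (g : Fin d → κ → V n → ℝ) (R : ι → κ → VV n → ℝ),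
      (∀ q a, ContDiffOn ℝ ∞ (e q a) (Bn n)) ∧ (∀ q b, ContDiffOn ℝ ∞ (g q b) (Bn n)) ∧
      (∀ q a, ∀ x ∈ Bn n, op S₁ (e q) a x = 0) ∧ (∀ q b, ∀ x ∈ Bn n, op S₂ (g q) b x = 0) ∧
      (∀ a b, ContDiffOn ℝ ∞ (R a b) (Un n)) ∧
      (∀ a b z, R a b z = k a b z - ∑ q, g q b z.2 * e q a z.1) ∧
      (∀ a b, ∀ z ∈ Un n, opx S₁ R a b z = 0) ∧ (∀ a b, ∀ z ∈ Un n, opy S₂ R a b z = 0) ∧
      ∀ y ∈ Bc n, ∀ b, ∑ a, ∫ x in Bc n, R a b (x, y) ^ 2 ≤ δ ^ 2 := by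
  obtain ⟨t, ht, hnet⟩ := net hk hδ
  have hsl : ∀ (l : t × κ) a, ContDiffOn ℝ ∞ (fun x => k a l.2 (x, (l.1 : V n))) (Bn n) :=
    fun l a => slice_x (hk a l.2) (Bc_subset (ht l.1 l.1.2))
  have hv : ∀ (l : t × κ) a, MemLp (fun x => k a l.2 (x, (l.1 : V n))) 2
      (volume.restrict (Bc n)) := fun l a => memLp_Bc ((hsl l a).continuousOn.mono Bc_subset)
  obtain ⟨d, c, hc⟩ := R2.H948.proj_vec (volume.restrict (Bc n))
    (fun (l : t × κ) a x => k a l.2 (x, (l.1 : V n))) hv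
  set e : Fin d → ι → V n → ℝ := fun q a x => ∑ l : t × κ, c q l * k a l.2 (x, (l.1 : V n))
    with he
  have hes : ∀ q a, ContDiffOn ℝ ∞ (e q a) (Bn n) := fun q a =>
    ContDiffOn.sum fun l _ => contDiffOn_const.mul (hsl l a)
  have hel : ∀ q a, ∀ x ∈ Bn n, op S₁ (e q) a x = 0 := by
    intro q a x hx
    rw [he]
    show op S₁ (fun a x => ∑ l : t × κ, c q l * k a l.2 (x, (l.1 : V n))) a x = 0
    rw [op_sum (F := fun (l : t × κ) a x => k a l.2 (x, (l.1 : V n))) (c q) hsl S₁ hx a]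
    refine Finset.sum_eq_zero fun l _ => ?_
    have h3 := op_slice_x (k := k) hk S₁ hx (Bc_subset (ht l.1 l.1.2)) a l.2
    have h4 := h1 a l.2 (x, (l.1 : V n)) ⟨hx, Bc_subset (ht l.1 l.1.2)⟩
    rw [h4] at h3
    rw [h3, mul_zero]
  have hec : ∀ q a, ContinuousOn (e q a) (Bc n) := fun q a =>
    (hes q a).continuousOn.mono Bc_subset
  set g : Fin d → κ → V n → ℝ := fun q b y => ∑ a, ∫ x in Bc n, e q a x * k a b (x, y) with hg
  have hgs : ∀ q b, ContDiffOn ℝ ∞ (g q b) (Bn n) := fun q b =>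
    ContDiffOn.sum fun a _ => (param (hk a b) (hec q a)).1
  have hgl : ∀ q b, ∀ y ∈ Bn n, op S₂ (g q) b y = 0 := by
    intro q b y hy
    have h3 := op_sum (F := fun (a : ι) b y => ∫ x in Bc n, e q a x * k a b (x, y))
      (fun _ => (1 : ℝ)) (fun a b => (param (hk a b) (hec q a)).1) S₂ hy b
    simp only [one_mul] at h3
    refine h3.trans (Finset.sum_eq_zero fun a _ => ?_)
    exact op_param hk (hec q a) a (h2 a) b y hy
  set R : ι → κ → VV n → ℝ := fun a b z => k a b z - ∑ q, g q b z.2 * e q a z.1 with hR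
  have hRs : ∀ a b, ContDiffOn ℝ ∞ (R a b) (Un n) := by
    intro a b
    refine (hk a b).sub (ContDiffOn.sum fun q _ => ?_)
    exact ((hgs q b).comp contDiff_snd.contDiffOn fun z hz => hz.2).mul
      ((hes q a).comp contDiff_fst.contDiffOn fun z hz => hz.1)
  refine ⟨d, e, g, R, hes, hgs, hel, hgl, hRs, fun a b z => rfl, ?_, ?_, ?_⟩
  · rintro a b ⟨x, y⟩ ⟨hx, hy⟩
    have h3 := op_sub (f := fun a x => k a b (x, y)) (g := fun a x => ∑ q, g q b y * e q a x)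
      (fun a => slice_x (hk a b) hy) (fun a => ContDiffOn.sum fun q _ =>
        contDiffOn_const.mul (hes q a)) S₁ hx a
    rw [op_slice_x hk S₁ hx hy, h1 a b _ ⟨hx, hy⟩,
      op_sum (F := e) (fun q => g q b y) hes S₁ hx a,
      Finset.sum_eq_zero fun q _ => by rw [hel q a x hx, mul_zero], sub_zero] at h3
    rw [← op_slice_x hRs S₁ hx hy]
    exact h3
  · rintro a b ⟨x, y⟩ ⟨hx, hy⟩
    have h3 := op_sub (f := fun b y => k a b (x, y)) (g := fun b y => ∑ q, e q a x * g q b y)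
      (fun b => slice_y (hk a b) hx) (fun b => ContDiffOn.sum fun q _ =>
        contDiffOn_const.mul (hgs q b)) S₂ hy b
    rw [op_slice_y hk S₂ hx hy, h2 a b _ ⟨hx, hy⟩,
      op_sum (F := g) (fun q => e q a x) hgs S₂ hy b,
      Finset.sum_eq_zero fun q _ => by rw [hgl q b y hy, mul_zero], sub_zero] at h3
    rw [← op_slice_y hRs S₂ hx hy]
    have h4 : (fun (b : κ) y => R a b (x, y)) = fun b y => k a b (x, y) -
        ∑ q, e q a x * g q b y := by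
      funext b y
      simp only [hR]
      congr 1
      exact Finset.sum_congr rfl fun q _ => mul_comm _ _
    rw [h4]
    exact h3
  · intro y hy b
    obtain ⟨y', hy', hle⟩ := hnet y hy
    have h3 := hc (fun a x => k a b (x, y))
      (fun a => memLp_Bc ((slice_x (hk a b) (Bc_subset hy)).continuousOn.mono Bc_subset))
      (⟨y', hy'⟩, b)
    exact h3.trans (hle b)

/-- The mixed derivatives of the remainder are small. -/
theorem rem_bound {S₁ : Sys n ι} {S₂ : Sys n κ} {C₁ C₂ : ℝ} (hC₁ : 0 < C₁) (hC₂ : 0 < C₂)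
    (he1 : ∀ u : ι → V n → ℝ, (∀ a, ContDiffOn ℝ ∞ (u a) (Bn n)) →
      (∀ a, ∀ x ∈ Bn n, op S₁ u a x = 0) → ∀ p ∈ Bs n (3 / 4), ∀ o a,
        |jd o (u a) p| ≤ C₁ * √(∑ a, ∫ x in Bc n, u a x ^ 2))
    (he2 : ∀ u : κ → V n → ℝ, (∀ a, ContDiffOn ℝ ∞ (u a) (Bn n)) →
      (∀ a, ∀ x ∈ Bn n, op S₂ u a x = 0) → ∀ p ∈ Bs n (3 / 4), ∀ o a,
        |jd o (u a) p| ≤ C₂ * √(∑ a, ∫ x in Bc n, u a x ^ 2))
    {R : ι → κ → VV n → ℝ} (hR : ∀ a b, ContDiffOn ℝ ∞ (R a b) (Un n))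
    (hR1 : ∀ a b, ∀ z ∈ Un n, opx S₁ R a b z = 0) (hR2 : ∀ a b, ∀ z ∈ Un n, opy S₂ R a b z = 0)
    {δ : ℝ} (hδ : 0 < δ) (hb : ∀ y ∈ Bc n, ∀ b, ∑ a, ∫ x in Bc n, R a b (x, y) ^ 2 ≤ δ ^ 2) :
    ∀ p ∈ Bs n (3 / 4), ∀ o o' a b, |jx o (jy o' (R a b)) (p, p)| ≤
      C₂ * (C₁ * δ * √(Fintype.card κ * volume.real (Bc n))) := by
  intro p hp o o' a b
  have hpB : p ∈ Bn n := Bc_subset (Bs_subset hp)
  rw [jx_jy (hR a b) ⟨hpB, hpB⟩]
  have hd : ∀ a b, ContDiffOn ℝ ∞ (jx o (R a b)) (Un n) := fun a b => contDiffOn_jx (hR a b) o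
  have h1 : ∀ y ∈ Bc n, ∀ b, |jx o (R a b) (p, y)| ≤ C₁ * δ := by
    intro y hy b
    rw [← jd_slice_x (hR a b) hpB (Bc_subset hy) o]
    refine (he1 (fun a x => R a b (x, y)) (fun a => slice_x (hR a b) (Bc_subset hy))
      (fun a x hx => ?_) p hp o a).trans ?_
    · rw [op_slice_x hR S₁ hx (Bc_subset hy)]; exact hR1 a b _ ⟨hx, Bc_subset hy⟩
    · refine mul_le_mul_of_nonneg_left ?_ hC₁.le
      rw [Real.sqrt_le_left hδ.le]
      exact hb y hy b
  rw [← jd_slice_y (hd a b) hpB hpB o']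
  refine (he2 (fun b y => jx o (R a b) (p, y)) (fun b => slice_y (hd a b) hpB)
    (fun b y hy => ?_) p hp o' b).trans ?_
  · have h2 := op_slice_y (k := fun a b => jx o (R a b)) hd S₂ hpB hy a b
    rw [h2]
    exact opy_jx hR hR2 o a b _ ⟨hpB, hy⟩
  · refine mul_le_mul_of_nonneg_left ?_ hC₂.le
    have h2 : ∀ b, ∀ y ∈ Bc n, jx o (R a b) (p, y) ^ 2 ≤ (C₁ * δ) ^ 2 := fun b y hy =>
      sq_le_sq' (by linarith [(abs_le.1 (h1 y hy b)).1]) (abs_le.1 (h1 y hy b)).2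
    have hc : ∀ b, ContinuousOn (fun y => jx o (R a b) (p, y) ^ 2) (Bc n) := fun b =>
      ((slice_y (hd a b) hpB).continuousOn.mono Bc_subset).pow 2
    have h3 : ∀ b, ∫ y in Bc n, jx o (R a b) (p, y) ^ 2 ≤ (C₁ * δ) ^ 2 * volume.real (Bc n) := by
      intro b
      calc _ ≤ ∫ y in Bc n, (C₁ * δ) ^ 2 := setIntegral_mono_on
            ((hc b).integrableOn_compact isCompact_Bc)
            (integrableOn_const isCompact_Bc.measure_lt_top.ne) measurableSet_Bc (h2 b)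
        _ = _ := by rw [setIntegral_const, smul_eq_mul, mul_comm]
    have h4 : ∑ b, ∫ y in Bc n, jx o (R a b) (p, y) ^ 2 ≤
        (C₁ * δ) ^ 2 * (Fintype.card κ * volume.real (Bc n)) := by
      refine (Finset.sum_le_sum fun b _ => h3 b).trans ?_
      rw [Finset.sum_const, Finset.card_univ, nsmul_eq_mul]
      apply le_of_eq; ring
    calc √(∑ b, ∫ y in Bc n, jx o (R a b) (p, y) ^ 2) ≤
          √((C₁ * δ) ^ 2 * (Fintype.card κ * volume.real (Bc n))) := Real.sqrt_le_sqrt h4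
      _ = C₁ * δ * √(Fintype.card κ * volume.real (Bc n)) := by
          rw [Real.sqrt_mul (sq_nonneg _), Real.sqrt_sq (by positivity)]

theorem jxjy_split {d : ℕ} {e : Fin d → ι → V n → ℝ} {g : Fin d → κ → V n → ℝ}
    {k R : ι → κ → VV n → ℝ} (he : ∀ q a, ContDiffOn ℝ ∞ (e q a) (Bn n))
    (hg : ∀ q b, ContDiffOn ℝ ∞ (g q b) (Bn n)) (hk : ∀ a b, ContDiffOn ℝ ∞ (k a b) (Un n))
    (hR : ∀ a b, ContDiffOn ℝ ∞ (R a b) (Un n))
    (hRe : ∀ a b z, R a b z = k a b z - ∑ q, g q b z.2 * e q a z.1) {p : V n} (hp : p ∈ Bn n)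
    (o o' : Option (Fin n)) (a : ι) (b : κ) :
    jx o (jy o' (k a b)) (p, p) = jx o (jy o' (R a b)) (p, p) +
      ∑ q, jd o (e q a) p * jd o' (g q b) p := by
  have hd : ∀ (f₁ f₂ : V n → ℝ), ContDiffOn ℝ ∞ f₁ (Bn n) → ContDiffOn ℝ ∞ f₂ (Bn n) → ∀ o,
      ∀ x ∈ Bn n, jd o (fun x => f₁ x - f₂ x) x = jd o f₁ x - jd o f₂ x := by
    intro f₁ f₂ h1 h2 o x hx
    cases o with
    | none => rfl
    | some i =>
      show fderiv ℝ (fun x => f₁ x - f₂ x) x _ = _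
      rw [fderiv_fun_sub (dAtB h1 hx) (dAtB h2 hx)]
      rfl
  have h1 : ∀ x ∈ Bn n, jy o' (R a b) (x, p) =
      jy o' (k a b) (x, p) - ∑ q, jd o' (g q b) p * e q a x := by
    intro x hx
    rw [← jd_slice_y (hR a b) hx hp o', ← jd_slice_y (hk a b) hx hp o']
    have h2 : (fun y => R a b (x, y)) = fun y => k a b (x, y) - ∑ q, e q a x * g q b y := by
      funext y
      rw [hRe]
      congr 1
      exact Finset.sum_congr rfl fun a _ => mul_comm _ _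
    rw [h2, hd _ _ (slice_y (hk a b) hx) (ContDiffOn.sum fun q _ =>
      contDiffOn_const.mul (hg q b)) o' p hp, jd_sum _ hp (fun q => hg q b) o']
    congr 1
    exact Finset.sum_congr rfl fun a _ => mul_comm _ _
  rw [← jd_slice_x (contDiffOn_jy (hR a b) o') hp hp o,
    ← jd_slice_x (contDiffOn_jy (hk a b) o') hp hp o, jd_congr h1 hp,
    hd _ _ (slice_x (contDiffOn_jy (hk a b) o') hp) (ContDiffOn.sum fun q _ =>
      contDiffOn_const.mul (he q a)) o p hp, jd_sum _ hp (fun q => he q a) o]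
  have h3 : ∑ q, jd o' (g q b) p * jd o (e q a) p = ∑ q, jd o (e q a) p * jd o' (g q b) p :=
    Finset.sum_congr rfl fun a _ => mul_comm _ _
  rw [h3]; ring

/-- The index set of the terms of the bilinear form. -/
abbrev Z (n : ℕ) (ι κ : Type) : Type := (Option (Fin n) × Option (Fin n)) × (ι × κ)

/-- Orthogonality: general systems, general bilinear forms in the first jets. -/
theorem ortG {S₁ : Sys n ι} {S₂ : Sys n κ} (hS₁ : IE S₁) (hS₂ : IE S₂)
    {c : Z n ι κ → V n → ℝ} (hc : ∀ w, ContinuousOn (c w) (Bc n))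
    (h : ∀ (u : ι → V n → ℝ) (v : κ → V n → ℝ), (∀ a, ContDiffOn ℝ ∞ (u a) (Bn n)) →
      (∀ b, ContDiffOn ℝ ∞ (v b) (Bn n)) → (∀ a, ∀ x ∈ Bn n, op S₁ u a x = 0) →
      (∀ b, ∀ x ∈ Bn n, op S₂ v b x = 0) →
      ∫ p in Bs n (3 / 4), ∑ w : Z n ι κ, c w p * (jd w.1.1 (u w.2.1) p * jd w.1.2 (v w.2.2) p) =
        0)
    {k : ι → κ → VV n → ℝ} (hk : ∀ a b, ContDiffOn ℝ ∞ (k a b) (Un n))
    (hk1 : ∀ a b, ∀ z ∈ Un n, opx S₁ k a b z = 0) (hk2 : ∀ a b, ∀ z ∈ Un n, opy S₂ k a b z = 0) :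
    ∫ p in Bs n (3 / 4), ∑ w : Z n ι κ, c w p * jx w.1.1 (jy w.1.2 (k w.2.1 w.2.2)) (p, p) =
      0 := by
  obtain ⟨C₁, hC₁, he1⟩ := hS₁
  obtain ⟨C₂, hC₂, he2⟩ := hS₂
  set m := volume.real (Bc n) with hm
  set I := ∫ p in Bs n (3 / 4), ∑ w : Z n ι κ, c w p *
    jx w.1.1 (jy w.1.2 (k w.2.1 w.2.2)) (p, p) with hIdef
  have hsub : Bs n (3 / 4) ⊆ Bn n := Bs_subset.trans Bc_subset
  obtain ⟨M, hM⟩ : ∃ M : ℝ, ∀ w, ∀ p ∈ Bc n, |c w p| ≤ M := by
    have h1 : ∀ w, ∃ M : ℝ, ∀ p ∈ Bc n, |c w p| ≤ M := fun w => by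
      obtain ⟨M, hM⟩ := isCompact_Bc.exists_bound_of_continuousOn (hc w)
      exact ⟨M, hM⟩
    choose M hM using h1
    exact ⟨∑ w, |M w|, fun w p hp => (hM w p hp).trans ((le_abs_self _).trans
      (Finset.single_le_sum (f := fun w => |M w|) (fun _ _ => abs_nonneg _)
        (Finset.mem_univ w)))⟩
  have hM0 : 0 ≤ |M| := abs_nonneg _
  set N : ℝ := ((Fintype.card (Z n ι κ) : ℕ) : ℝ) with hN
  set B : ℝ := C₂ * (C₁ * √(Fintype.card κ * m)) with hB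
  have hB0 : 0 ≤ B := by positivity
  have hm0 : 0 ≤ m := measureReal_nonneg
  have hN0 : 0 ≤ N := by positivity
  have key : ∀ δ : ℝ, 0 < δ → |I| ≤ (N * (|M| * (B * δ))) * m := by
    intro δ hδ
    obtain ⟨d, e, g, R, hes, hgs, hel, hgl, hRs, hRe, hR1, hR2, hRb⟩ := approx hk hk1 hk2 hδ
    have hrb := rem_bound hC₁ hC₂ he1 he2 hRs hR1 hR2 hδ hRb
    have hi1 : IntegrableOn (fun p => ∑ w : Z n ι κ, c w p *
        jx w.1.1 (jy w.1.2 (R w.2.1 w.2.2)) (p, p)) (Bs n (3 / 4)) := by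
      refine (ContinuousOn.integrableOn_compact isCompact_Bc ?_).mono_set Bs_subset
      exact continuousOn_finsetSum _ fun w _ =>
        (hc w).mul (cont_diag (contDiffOn_jx (contDiffOn_jy (hRs _ _) _) _))
    have hi2 : ∀ q, IntegrableOn (fun p => ∑ w : Z n ι κ, c w p *
        (jd w.1.1 (e q w.2.1) p * jd w.1.2 (g q w.2.2) p)) (Bs n (3 / 4)) := by
      intro q
      refine (ContinuousOn.integrableOn_compact isCompact_Bc ?_).mono_set Bs_subset
      exact continuousOn_finsetSum _ fun w _ =>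
        (hc w).mul (((contDiffOn_jd (hes q _) _).continuousOn.mono Bc_subset).mul
          ((contDiffOn_jd (hgs q _) _).continuousOn.mono Bc_subset))
    have hI2 : I = ∫ p in Bs n (3 / 4), ((∑ w : Z n ι κ, c w p *
        jx w.1.1 (jy w.1.2 (R w.2.1 w.2.2)) (p, p)) +
        ∑ q, ∑ w : Z n ι κ, c w p * (jd w.1.1 (e q w.2.1) p * jd w.1.2 (g q w.2.2) p)) := by
      rw [hIdef]
      refine setIntegral_congr_fun (isOpen_Bs _).measurableSet fun p hp => ?_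
      show ∑ w : Z n ι κ, c w p * jx w.1.1 (jy w.1.2 (k w.2.1 w.2.2)) (p, p) = _
      rw [Finset.sum_comm, ← Finset.sum_add_distrib]
      refine Finset.sum_congr rfl fun w _ => ?_
      rw [jxjy_split hes hgs hk hRs hRe (hsub hp), mul_add, Finset.mul_sum]
    rw [hI2, integral_add hi1 (integrable_finsetSum _ fun q _ => hi2 q),
      integral_finsetSum _ fun q _ => hi2 q,
      Finset.sum_eq_zero fun q _ => h (e q) (g q) (hes q) (hgs q) (hel q) (hgl q), add_zero]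
    have hbd : ∀ p ∈ Bs n (3 / 4), ‖∑ w : Z n ι κ, c w p *
        jx w.1.1 (jy w.1.2 (R w.2.1 w.2.2)) (p, p)‖ ≤ N * (|M| * (B * δ)) := by
      intro p hp
      have h7 : ∀ w ∈ (Finset.univ : Finset (Z n ι κ)), ‖c w p *
          jx w.1.1 (jy w.1.2 (R w.2.1 w.2.2)) (p, p)‖ ≤ |M| * (B * δ) := by
        intro w _
        rw [norm_mul, Real.norm_eq_abs, Real.norm_eq_abs]
        refine mul_le_mul ((hM w p (Bs_subset hp)).trans (le_abs_self _)) ?_ (abs_nonneg _) hM0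
        refine (hrb p hp w.1.1 w.1.2 w.2.1 w.2.2).trans (le_of_eq ?_)
        rw [hB]; ring
      have h9 := norm_sum_le_of_le _ h7
      rw [Finset.sum_const, Finset.card_univ, nsmul_eq_mul] at h9
      exact h9
    have hfin : volume (Bs n (3 / 4)) < ⊤ :=
      (measure_mono Bs_subset).trans_lt isCompact_Bc.measure_lt_top
    have h10 := norm_setIntegral_le_of_norm_le_const hfin hbd
    rw [Real.norm_eq_abs] at h10
    refine h10.trans ?_
    refine mul_le_mul_of_nonneg_left ?_ (by positivity)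
    exact measureReal_mono Bs_subset isCompact_Bc.measure_lt_top.ne
  by_contra hne
  have hpos : 0 < |I| := abs_pos.2 hne
  set A : ℝ := (N * (|M| * B)) * m with hA
  have hA0 : 0 ≤ A := by positivity
  have h11 := key (|I| / (2 * (A + 1))) (by positivity)
  have h12 : (N * (|M| * (B * (|I| / (2 * (A + 1)))))) * m = A * |I| / (2 * (A + 1)) := by
    rw [hA]; ring
  rw [h12, le_div_iff₀ (by positivity)] at h11
  nlinarith

end Vale.Agent.P088.HY.G
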