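import Vale.Agent.P088.R2.H948.G.Par
import Vale.Agent.P088.R2.H948.G.Proj

/-!
# Second order linear systems on pairs of points; parametric integrals of solutions
-/

open MeasureTheory Set
open scoped ContDiff Matrix Topology

noncomputable section

set_option linter.unusedSectionVars false

namespace Vale.Agent.P088.HY.G

open Vale.Agent.P088.LR

variable {n : ℕ} {ι κ : Type} [Fintype ι] [Fintype κ]

/-- Derivatives of order at most `1`. -/
def jd (o : Option (Fin n)) (f : V n → ℝ) : V n → ℝ := o.elim f fun i => pd i f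

/-- Derivatives of order at most `1` in `x`. -/
def jx (o : Option (Fin n)) (f : VV n → ℝ) : VV n → ℝ := o.elim f fun i => dx i f

/-- Derivatives of order at most `1` in `y`. -/
def jy (o : Option (Fin n)) (f : VV n → ℝ) : VV n → ℝ := o.elim f fun i => dy i f

@[simp] theorem jd_none (f : V n → ℝ) : jd none f = f := rfl
@[simp] theorem jd_some (i : Fin n) (f : V n → ℝ) : jd (some i) f = pd i f := rfl
@[simp] theorem jx_none (f : VV n → ℝ) : jx none f = f := rfl
@[simp] theorem jx_some (i : Fin n) (f : VV n → ℝ) : jx (some i) f = dx i f := rfl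
@[simp] theorem jy_none (f : VV n → ℝ) : jy none f = f := rfl
@[simp] theorem jy_some (i : Fin n) (f : VV n → ℝ) : jy (some i) f = dy i f := rfl

/-- The index set of the terms of a second order system. -/
abbrev W (n : ℕ) (ι : Type) : Type := (Option (Fin n) × Option (Fin n)) × ι

/-- A second order linear system: `(L u)_a = ∑_w c a w * ∂_w.1.1 ∂_w.1.2 u_w.2`. -/
abbrev Sys (n : ℕ) (ι : Type) : Type := ι → W n ι → V n → ℝ

/-- The operator on `V n`. -/
def op (S : Sys n ι) (u : ι → V n → ℝ) (a : ι) (x : V n) : ℝ :=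
  ∑ w : W n ι, S a w x * jd w.1.1 (jd w.1.2 (u w.2)) x

/-- The operator in `x` on functions of pairs, on the left index. -/
def opx (S : Sys n ι) (k : ι → κ → VV n → ℝ) (a : ι) (b : κ) (z : VV n) : ℝ :=
  ∑ w : W n ι, S a w z.1 * jx w.1.1 (jx w.1.2 (k w.2 b)) z

/-- The operator in `y` on functions of pairs, on the right index. -/
def opy (S : Sys n κ) (k : ι → κ → VV n → ℝ) (a : ι) (b : κ) (z : VV n) : ℝ :=
  ∑ w : W n κ, S b w z.2 * jy w.1.1 (jy w.1.2 (k a w.2)) z

/-- The interior estimate for the system. -/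
def IE (S : Sys n ι) : Prop := ∃ C : ℝ, 0 < C ∧ ∀ u : ι → V n → ℝ,
  (∀ a, ContDiffOn ℝ ∞ (u a) (Bn n)) → (∀ a, ∀ x ∈ Bn n, op S u a x = 0) →
  ∀ p ∈ Bs n (3 / 4), ∀ o a, |jd o (u a) p| ≤ C * √(∑ a, ∫ x in Bc n, u a x ^ 2)

theorem contDiffOn_jd {f : V n → ℝ} (hf : ContDiffOn ℝ ∞ f (Bn n)) (o : Option (Fin n)) :
    ContDiffOn ℝ ∞ (jd o f) (Bn n) := by
  cases o with
  | none => exact hf
  | some i => exact contDiffOn_pd isOpen_Bn hf i

theorem contDiffOn_jx {f : VV n → ℝ} (hf : ContDiffOn ℝ ∞ f (Un n)) (o : Option (Fin n)) :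
    ContDiffOn ℝ ∞ (jx o f) (Un n) := by
  cases o with
  | none => exact hf
  | some i => exact contDiffOn_dx hf i

theorem contDiffOn_jy {f : VV n → ℝ} (hf : ContDiffOn ℝ ∞ f (Un n)) (o : Option (Fin n)) :
    ContDiffOn ℝ ∞ (jy o f) (Un n) := by
  cases o with
  | none => exact hf
  | some i => exact contDiffOn_dy hf i

theorem jd_congr {f g : V n → ℝ} (h : ∀ x ∈ Bn n, f x = g x) {x : V n} (hx : x ∈ Bn n)
    (o : Option (Fin n)) : jd o f x = jd o g x := by
  cases o with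
  | none => exact h x hx
  | some i => exact pd_congrB h hx i

theorem jd_slice_x {f : VV n → ℝ} (hf : ContDiffOn ℝ ∞ f (Un n)) {x y : V n} (hx : x ∈ Bn n)
    (hy : y ∈ Bn n) (o : Option (Fin n)) : jd o (fun x => f (x, y)) x = jx o f (x, y) := by
  cases o with
  | none => rfl
  | some i => exact pd_slice_x (dAt hf ⟨hx, hy⟩) i

theorem jd_slice_y {f : VV n → ℝ} (hf : ContDiffOn ℝ ∞ f (Un n)) {x y : V n} (hx : x ∈ Bn n)
    (hy : y ∈ Bn n) (o : Option (Fin n)) : jd o (fun y => f (x, y)) y = jy o f (x, y) := by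
  cases o with
  | none => rfl
  | some i => exact pd_slice_y (dAt hf ⟨hx, hy⟩) i

theorem jd2_slice_x {f : VV n → ℝ} (hf : ContDiffOn ℝ ∞ f (Un n)) {x y : V n} (hx : x ∈ Bn n)
    (hy : y ∈ Bn n) (o o' : Option (Fin n)) :
    jd o (jd o' (fun x => f (x, y))) x = jx o (jx o' f) (x, y) := by
  rw [jd_congr (fun x' hx' => jd_slice_x hf hx' hy o') hx]
  exact jd_slice_x (contDiffOn_jx hf o') hx hy o

theorem jd2_slice_y {f : VV n → ℝ} (hf : ContDiffOn ℝ ∞ f (Un n)) {x y : V n} (hx : x ∈ Bn n)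
    (hy : y ∈ Bn n) (o o' : Option (Fin n)) :
    jd o (jd o' (fun y => f (x, y))) y = jy o (jy o' f) (x, y) := by
  rw [jd_congr (fun y' hy' => jd_slice_y hf hx hy' o') hy]
  exact jd_slice_y (contDiffOn_jy hf o') hx hy o

theorem jx_jy {f : VV n → ℝ} (hf : ContDiffOn ℝ ∞ f (Un n)) {z : VV n} (hz : z ∈ Un n)
    (o o' : Option (Fin n)) : jx o (jy o' f) z = jy o' (jx o f) z := by
  cases o with
  | none => rfl
  | some i =>
    cases o' with
    | none => rfl
    | some j => exact dx_dy_comm hf hz i j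

/-- The system on slices. -/
theorem op_slice_x {k : ι → κ → VV n → ℝ} (hk : ∀ a b, ContDiffOn ℝ ∞ (k a b) (Un n))
    (S : Sys n ι) {x y : V n} (hx : x ∈ Bn n) (hy : y ∈ Bn n) (a : ι) (b : κ) :
    op S (fun a x => k a b (x, y)) a x = opx S k a b (x, y) := by
  unfold op opx
  exact Finset.sum_congr rfl fun w _ => by rw [jd2_slice_x (hk w.2 b) hx hy]

theorem op_slice_y {k : ι → κ → VV n → ℝ} (hk : ∀ a b, ContDiffOn ℝ ∞ (k a b) (Un n))
    (S : Sys n κ) {x y : V n} (hx : x ∈ Bn n) (hy : y ∈ Bn n) (a : ι) (b : κ) :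
    op S (fun b y => k a b (x, y)) b y = opy S k a b (x, y) := by
  unfold op opy
  exact Finset.sum_congr rfl fun w _ => by rw [jd2_slice_y (hk a w.2) hx hy]

theorem pd_sum {I : Type*} [Fintype I] {F : I → V n → ℝ} (c : I → ℝ) {x : V n}
    (hF : ∀ q, DifferentiableAt ℝ (F q) x) (i : Fin n) :
    pd i (fun x => ∑ q, c q * F q x) x = ∑ q, c q * pd i (F q) x := by
  have h : HasFDerivAt (fun x => ∑ q, c q * F q x) (∑ q, c q • fderiv ℝ (F q) x) x :=
    HasFDerivAt.fun_sum fun a _ => (hF a).hasFDerivAt.const_mul (c a)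
  show fderiv ℝ (fun x => ∑ q, c q * F q x) x (Pi.single i 1) = _
  rw [h.fderiv]
  simp only [_root_.sum_apply, _root_.smul_apply, smul_eq_mul]
  rfl

theorem jd_sum {I : Type*} [Fintype I] {F : I → V n → ℝ} (c : I → ℝ) {x : V n} (hx : x ∈ Bn n)
    (hF : ∀ q, ContDiffOn ℝ ∞ (F q) (Bn n)) (o : Option (Fin n)) :
    jd o (fun x => ∑ q, c q * F q x) x = ∑ q, c q * jd o (F q) x := by
  cases o with
  | none => rfl
  | some i => exact pd_sum c (fun q => dAtB (hF q) hx) i

theorem jd2_sum {I : Type*} [Fintype I] {F : I → V n → ℝ} (c : I → ℝ) {x : V n} (hx : x ∈ Bn n)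
    (hF : ∀ q, ContDiffOn ℝ ∞ (F q) (Bn n)) (o o' : Option (Fin n)) :
    jd o (jd o' (fun x => ∑ q, c q * F q x)) x = ∑ q, c q * jd o (jd o' (F q)) x := by
  rw [jd_congr (fun y hy => jd_sum c hy hF o') hx]
  exact jd_sum c hx (fun q => contDiffOn_jd (hF q) o') o

/-- The system on linear combinations. -/
theorem op_sum {I : Type*} [Fintype I] {F : I → ι → V n → ℝ} (c : I → ℝ)
    (hF : ∀ q a, ContDiffOn ℝ ∞ (F q a) (Bn n)) (S : Sys n ι) {x : V n} (hx : x ∈ Bn n) (a : ι) :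
    op S (fun a x => ∑ q, c q * F q a x) a x = ∑ q, c q * op S (F q) a x := by
  unfold op
  simp only [Finset.mul_sum]
  rw [Finset.sum_comm]
  refine Finset.sum_congr rfl fun w _ => ?_
  rw [jd2_sum c hx (fun q => hF q w.2), Finset.mul_sum]
  exact Finset.sum_congr rfl fun q _ => by ring

/-- The system on differences. -/
theorem op_sub {f g : ι → V n → ℝ} (hf : ∀ a, ContDiffOn ℝ ∞ (f a) (Bn n))
    (hg : ∀ a, ContDiffOn ℝ ∞ (g a) (Bn n)) (S : Sys n ι) {x : V n} (hx : x ∈ Bn n) (a : ι) :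
    op S (fun a x => f a x - g a x) a x = op S f a x - op S g a x := by
  have h := op_sum (F := fun (q : Fin 2) a x => if q = 0 then f a x else g a x)
    (fun q => if q = 0 then 1 else -1) (fun q a => by
      fin_cases q
      · simpa using hf a
      · simpa using hg a) S hx a
  simp only [Fin.sum_univ_two, Fin.isValue, if_true, one_mul, Fin.one_eq_zero_iff,
    OfNat.ofNat_ne_one, if_false, neg_mul, ← sub_eq_add_neg] at h
  exact h

/-- Parametric integrals. -/
theorem jparam {k : VV n → ℝ} (hk : ContDiffOn ℝ ∞ k (Un n)) {e : V n → ℝ}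
    (he : ContinuousOn e (Bc n)) {y : V n} (hy : y ∈ Bn n) (o : Option (Fin n)) :
    jd o (fun y => ∫ x in Bc n, e x * k (x, y)) y = ∫ x in Bc n, e x * jy o k (x, y) := by
  cases o with
  | none => rfl
  | some i => exact (param hk he).2 y hy i

theorem jparam2 {k : VV n → ℝ} (hk : ContDiffOn ℝ ∞ k (Un n)) {e : V n → ℝ}
    (he : ContinuousOn e (Bc n)) {y : V n} (hy : y ∈ Bn n) (o o' : Option (Fin n)) :
    jd o (jd o' (fun y => ∫ x in Bc n, e x * k (x, y))) y =
      ∫ x in Bc n, e x * jy o (jy o' k) (x, y) := by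
  rw [jd_congr (fun y' hy' => jparam hk he hy' o') hy]
  exact jparam (contDiffOn_jy hk o') he hy o

theorem int_slice {f : VV n → ℝ} (hf : ContDiffOn ℝ ∞ f (Un n)) {e : V n → ℝ}
    (he : ContinuousOn e (Bc n)) {y : V n} (hy : y ∈ Bn n) :
    Integrable (fun x => e x * f (x, y)) (volume.restrict (Bc n)) :=
  (he.mul ((slice_x hf hy).continuousOn.mono Bc_subset)).integrableOn_compact isCompact_Bc

/-- Parametric integrals of solutions are solutions. -/
theorem op_param {k : ι → κ → VV n → ℝ} (hk : ∀ a b, ContDiffOn ℝ ∞ (k a b) (Un n))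
    {e : V n → ℝ} (he : ContinuousOn e (Bc n)) {S : Sys n κ} (a : ι)
    (h : ∀ b, ∀ z ∈ Un n, opy S k a b z = 0) :
    ∀ b, ∀ y ∈ Bn n, op S (fun b y => ∫ x in Bc n, e x * k a b (x, y)) b y = 0 := by
  intro b y hy
  unfold op
  have h1 : ∀ w : W n κ, S b w y * jd w.1.1 (jd w.1.2
      (fun y => ∫ x in Bc n, e x * k a w.2 (x, y))) y =
      ∫ x in Bc n, S b w y * (e x * jy w.1.1 (jy w.1.2 (k a w.2)) (x, y)) := by
    intro w
    rw [jparam2 (hk a w.2) he hy, integral_const_mul]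
  rw [Finset.sum_congr rfl fun w _ => h1 w, ← integral_finsetSum _ fun w _ =>
    (int_slice (contDiffOn_jy (contDiffOn_jy (hk a w.2) w.1.2) w.1.1) he hy).const_mul _]
  have h2 : ∀ x ∈ Bc n, ∑ w : W n κ, S b w y * (e x * jy w.1.1 (jy w.1.2 (k a w.2)) (x, y)) =
      0 := by
    intro x hx
    have h3 : ∑ w : W n κ, S b w y * (e x * jy w.1.1 (jy w.1.2 (k a w.2)) (x, y)) =
        e x * opy S k a b (x, y) := by
      unfold opy
      rw [Finset.mul_sum]
      exact Finset.sum_congr rfl fun w _ => by ring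
    rw [h3, h b _ ⟨Bc_subset hx, hy⟩, mul_zero]
  rw [setIntegral_congr_fun measurableSet_Bc h2]
  simp

/-- `∂_x` commutes with the system in `y`. -/
theorem opy_jx {k : ι → κ → VV n → ℝ} (hk : ∀ a b, ContDiffOn ℝ ∞ (k a b) (Un n)) {S : Sys n κ}
    (h : ∀ a b, ∀ z ∈ Un n, opy S k a b z = 0) (o : Option (Fin n)) (a : ι) (b : κ) :
    ∀ z ∈ Un n, opy S (fun a b => jx o (k a b)) a b z = 0 := by
  rintro ⟨x, y⟩ ⟨hx, hy⟩
  have h1 : ∀ w : W n κ, jy w.1.1 (jy w.1.2 (jx o (k a w.2))) (x, y) =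
      jd o (fun x => jy w.1.1 (jy w.1.2 (k a w.2)) (x, y)) x := by
    intro w
    have hk2 := contDiffOn_jy (hk a w.2) w.1.2
    rw [jd_slice_x (contDiffOn_jy hk2 w.1.1) hx hy, jx_jy hk2 ⟨hx, hy⟩,
      ← jd_slice_y (contDiffOn_jx hk2 o) hx hy,
      ← jd_slice_y (contDiffOn_jy (contDiffOn_jx (hk a w.2) o) w.1.2) hx hy]
    exact jd_congr (fun y' (hy' : y' ∈ Bn n) =>
      (jx_jy (hk a w.2) (z := (x, y')) ⟨hx, hy'⟩ o w.1.2).symm) hy _
  have h4 : opy S (fun a b => jx o (k a b)) a b (x, y) =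
      jd o (fun x => ∑ w : W n κ, S b w y * jy w.1.1 (jy w.1.2 (k a w.2)) (x, y)) x := by
    rw [jd_sum (fun w : W n κ => S b w y) hx (fun w =>
      slice_x (contDiffOn_jy (contDiffOn_jy (hk a w.2) w.1.2) w.1.1) hy) o]
    unfold opy
    exact Finset.sum_congr rfl fun w _ => by rw [h1]
  have h5 : ∀ x' ∈ Bn n, ∑ w : W n κ, S b w y * jy w.1.1 (jy w.1.2 (k a w.2)) (x', y) =
      (fun _ => 0 : V n → ℝ) x' := fun x' hx' => h a b (x', y) ⟨hx', hy⟩
  rw [h4, jd_congr h5 hx]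
  cases o with
  | none => rfl
  | some i => show fderiv ℝ (fun _ : V n => (0 : ℝ)) x _ = 0; simp

end Vale.Agent.P088.HY.G
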